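import Vale.Agent.P034.Main

namespace Vale.Agent.Results.P034.FullTalagrand

open Vale.Agent.P034

/-- Talagrand's conjecture: `q_f ≤ K q` for a universal constant `K`. -/
theorem result : ∃ K : ℝ, 0 < K ∧ ∀ (X : Type) [Fintype X] [DecidableEq X]
    (F : Finset (Finset X)), ∅ ∉ F → qFrac F ≤ K * qInt F :=
  ⟨2 ^ 200, by positivity, fun _ _ _ F hF => qFrac_le F hF⟩

end Vale.Agent.Results.P034.FullTalagrand
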